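import Crest.Agent.X37.LB.Core
import Crest.Agent.X37.Gr.Classes
import Crest.Agent.X37.Outer.Defs

/-!
Row 37, Lemma B: the geometric claim implies the bound consumed by the outer loop.
-/

set_option autoImplicit false

namespace Crest.Agent.X37.LB

open Finset

/-- **Lemma B** for the classes of partition connectivity -/
theorem geomBound {C : ℝ} (hC : 0 < C) (hcl : Claim C) {V E : Type} [Fintype V] [DecidableEq V]
    [Fintype E] [DecidableEq E] (src tgt : E → V) (k : ℕ) (gap K del : ℝ) (p : ℕ) (hk : 1 ≤ k)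
    (hgap : 0 < gap) (hpc : PC src tgt (k + gap) univ) (hK : 1 ≤ K) (hdel : 0 < del)
    (hdel1 : del ≤ 1) (hCp : C ≤ del * 2 ^ p) (hkp : 8 * k * K ≤ 2 ^ p) :
    Outer.GeomBound src tgt (Rel src tgt k) K
      (16 * del + (2 + 12 * C * (p + 4 * K) / del) / gap) := by
  intro I _ l d X u good hl hd hdl hX hu hud hg
  have hW : 0 ≤ ∑ e, l e := sum_nonneg fun e _ => zero_le_one.trans (hl e)
  rcases good.eq_empty_or_nonempty with rfl | ⟨e0, -⟩
  · rw [sum_empty]; positivity
  haveI : Nonempty V := ⟨src e0⟩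
  have hk1 : (1 : ℝ) ≤ k := by exact_mod_cast hk
  have hk0 : (0 : ℝ) < k := by linarith
  obtain ⟨n, hn1, hn2⟩ := exists_nat_pow_near (x := 2 * K) (y := (2 : ℝ)) (by linarith)
    (by norm_num)
  set q := n + 1 with hq
  have hq4 : (2 : ℝ) ^ q ≤ 4 * K := by rw [hq, pow_succ]; linarith
  have hqp : q + 1 ≤ p := by
    have h : (2 : ℝ) ^ (q + 1) ≤ 2 ^ p := by rw [pow_succ]; nlinarith
    exact (pow_le_pow_iff_right₀ (by norm_num : (1 : ℝ) < 2)).1 h
  set s0 : ℝ := 1 / 2 ^ (p + q) with hs0def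
  have hs0 : 0 < s0 := by positivity
  have hsmall : ∀ i, i < p + q → s0 * 2 ^ i < 1 := fun i hi => by
    rw [hs0def, one_div, inv_mul_lt_iff₀ (by positivity), mul_one]
    exact pow_lt_pow_right₀ (by norm_num) hi
  let A : ℕ → Finset E := fun i => univ.filter fun f => l f ≤ s0 * 2 ^ i
  have hN : ∀ i, ncl (cls src tgt k (A i)) = Ncl src tgt k (A i) := fun i => by
    rw [cast_Ncl]; rfl
  have key := lemmaB_core hC.le hcl src tgt l d X u good (fun i => cls src tgt k (A i))
    (s0 := s0) (del := del) (gap := gap) (k := k) p q hd.self hd.symm hd.tri hdl hX hu hud hs0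
    (fun e => (hsmall q (by omega)).trans_le (hl e)) hdel hdel1 hgap hCp hqp (by nlinarith)
    (fun i hi a b hab => by
      refine Rel.eq_of_loops hk0 (fun e he => ?_) (cls_eq_iff.1 hab)
      have h1 := (mem_filter.1 he).2
      have h2 := hsmall i (by omega)
      have h3 := hl e
      linarith)
    (fun i a b hab => by
      refine cls_mono (fun e he => mem_filter.2 ⟨mem_univ _, (mem_filter.1 he).2.trans ?_⟩) hab
      exact mul_le_mul_of_nonneg_left (pow_le_pow_right₀ (by norm_num) (Nat.le_succ i)) hs0.le)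
    (fun i a b hab => by
      refine Relation.ReflTransGen.mono (fun x y hxy => ?_) _ _
        (Rel.reflTransGen hk0 (cls_eq_iff.1 hab))
      obtain ⟨h1, e, he, h2⟩ := hxy
      refine ⟨cls_eq_iff.2 h1, ?_⟩
      have h3 := (hdl e).trans (mem_filter.1 he).2
      rcases h2 with ⟨rfl, rfl⟩ | ⟨rfl, rfl⟩
      · exact h3
      · rw [hd.symm]; exact h3)
    (fun i => by
      rw [hN]
      refine le_trans (Nat.cast_le.2 (card_le_card fun e he => ?_)) card_cross_cls_le
      obtain ⟨-, h1, h2⟩ := mem_filter.1 he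
      exact mem_cross.2 ⟨mem_filter.2 ⟨mem_univ _, h1⟩, mem_univ _, mem_univ _, h2⟩)
    (fun i => by
      rw [hN]
      refine hpc.gap_mul_Ncl_le.trans (Nat.cast_le.2 (card_le_card fun e he => ?_))
      refine mem_filter.2 ⟨mem_univ _, lt_of_not_ge fun h => ?_⟩
      exact (mem_sdiff.1 he).2 (mem_filter.2 ⟨mem_univ _, h⟩))
    (fun e he i hi hc => by
      refine hg e he (s0 * 2 ^ i) ?_ (cls_eq_iff.1 hc)
      have h1 : 0 < s0 * 2 ^ i := by positivity
      rw [pow_add, ← mul_assoc] at hi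
      nlinarith)
  refine key.trans (mul_le_mul_of_nonneg_right ?_ hW)
  gcongr

/-- the geometric claim implies Lemma B -/
theorem lemmaB_of {C : ℝ} (hC : 0 < C) (h : Claim C) : Outer.LemmaB :=
  ⟨C, hC, fun _ _ _ _ _ _ src tgt k gap K del p hk hgap hpc hK hdel hdel1 hCp hkp =>
    geomBound hC h src tgt k gap K del p hk hgap hpc hK hdel hdel1 hCp hkp⟩

end Crest.Agent.X37.LB
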