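import Mathlib

/-!
Row 37, Lemma B: the geometric CLAIM (Steiner potential bound for nets of endpoints along a
residue class of dyadic scales), stated for a finite pseudo-metric and a chain of label maps.
-/

set_option autoImplicit false

namespace Crest.Agent.X37.LB

open Finset

/-- number of classes of a label map, minus one -/
noncomputable def ncl {V : Type} [Fintype V] [DecidableEq V] (c : V → V) : ℝ :=
  ((Finset.univ.image c).card : ℝ) - 1

/-- The geometric claim with constant `C`: scales `t j = s0 * 2^(j*p+q)`, partitions `c (j*p)`. -/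
def Claim (C : ℝ) : Prop :=
  ∀ (V : Type) [Fintype V] [DecidableEq V] [Nonempty V] (d : V → V → ℝ) (c : ℕ → V → V) (s0 del : ℝ)
    (p q J : ℕ) (Z : ℕ → Finset V),
    (∀ u, d u u = 0) → (∀ u v, d u v = d v u) → (∀ u v w, d u w ≤ d u v + d v w) →
    0 < s0 → 0 < del → del ≤ 1 → C ≤ del * 2 ^ p → q + 1 ≤ p →
    (∀ u v, c 0 u = c 0 v → u = v) →
    (∀ i u v, c i u = c i v → c (i + 1) u = c (i + 1) v) →
    (∀ i u v, c i u = c i v →
      Relation.ReflTransGen (fun a b => c i a = c i b ∧ d a b ≤ s0 * 2 ^ i) u v) →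
    (∀ j, ∀ x ∈ Z j, ∀ y ∈ Z j, x ≠ y → del * (s0 * 2 ^ (j * p + q)) ≤ d x y) →
    (∀ j, ∀ x ∈ Z j, ∃ y, d x y ≤ s0 * 2 ^ (j * p + q) ∧ c (j * p) x ≠ c (j * p) y ∧
      c ((j + 1) * p) x = c ((j + 1) * p) y) →
    ∑ j ∈ range J, s0 * 2 ^ (j * p + q) * ((Z j).card : ℝ) ≤
      C / del * (∑ i ∈ range (J * p), s0 * 2 ^ i * ncl (c i) +
        ∑ j ∈ range J, s0 * 2 ^ (j * p + q) * ncl (c (j * p)))

end Crest.Agent.X37.LB
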