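import Mathlib

/-!
Row 37, Lemma B: the Bessel step.  Vectors `u e` with disjoint supports and norm at most one
paired with short vectors in a space of small dimension.
-/

set_option autoImplicit false

namespace Crest.Agent.X37.LB

open Finset

variable {V E I : Type} [Fintype I]

/-- Cauchy-Schwarz against a vector of norm at most one -/
theorem sq_pair_le (u b : I → ℝ) (hu : ∑ i, u i ^ 2 ≤ 1) :
    (∑ i, u i * b i) ^ 2 ≤ ∑ i, b i ^ 2 := by
  have h := Finset.sum_mul_sq_le_sq_mul_sq univ u b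
  have h0 : 0 ≤ ∑ i, b i ^ 2 := sum_nonneg fun i _ => sq_nonneg _
  nlinarith

/-- Bessel's inequality for vectors with disjoint supports -/
theorem bessel_disj (u : E → I → ℝ) (hu : ∀ e, ∑ i, u e i ^ 2 ≤ 1)
    (hd : ∀ e f, e ≠ f → ∀ i, u e i * u f i = 0) (s : Finset E) (b : I → ℝ) :
    ∑ e ∈ s, (∑ i, u e i * b i) ^ 2 ≤ ∑ i, b i ^ 2 := by
  classical
  have h1 : ∀ e, (∑ i, u e i * b i) ^ 2 ≤ ∑ i, if u e i ≠ 0 then b i ^ 2 else 0 := by
    intro e
    have h2 : ∑ i, u e i * b i = ∑ i, u e i * (if u e i ≠ 0 then b i else 0) := by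
      refine sum_congr rfl fun i _ => ?_
      by_cases h : u e i = 0 <;> simp [h]
    rw [h2]
    refine (sq_pair_le (u e) _ (hu e)).trans (le_of_eq (sum_congr rfl fun i _ => ?_))
    by_cases h : u e i = 0 <;> simp [h]
  refine (sum_le_sum fun e _ => h1 e).trans ?_
  rw [sum_comm]
  refine sum_le_sum fun i _ => ?_
  rw [← sum_filter, sum_const, nsmul_eq_mul]
  have h3 : (s.filter fun e => u e i ≠ 0).card ≤ 1 := by
    refine card_le_one.2 fun e he f hf => ?_
    by_contra hne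
    rcases mul_eq_zero.1 (hd e f hne i) with h | h
    · exact (mem_filter.1 he).2 h
    · exact (mem_filter.1 hf).2 h
  have h4 : ((s.filter fun e => u e i ≠ 0).card : ℝ) ≤ 1 := by exact_mod_cast h3
  nlinarith [sq_nonneg (b i)]

/-- short differences of points of a small set are almost orthogonal to most `u e` -/
theorem bessel_rank (u : E → I → ℝ) (hu : ∀ e, ∑ i, u e i ^ 2 ≤ 1)
    (hd : ∀ e f, e ≠ f → ∀ i, u e i * u f i = 0) (X : V → I → ℝ) (N : Finset V) (s : Finset E)
    (a b : E → V) (ha : ∀ e ∈ s, a e ∈ N) (hb : ∀ e ∈ s, b e ∈ N) {T : ℝ} (hT : 0 ≤ T)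
    (hz : ∀ e ∈ s, ∑ i, (X (a e) i - X (b e) i) ^ 2 ≤ T) :
    ∑ e ∈ s, (∑ i, u e i * (X (a e) i - X (b e) i)) ^ 2 ≤ T * N.card := by
  classical
  let Y : V → EuclideanSpace ℝ I := fun p => WithLp.toLp 2 (X p)
  let U : Submodule ℝ (EuclideanSpace ℝ I) := Submodule.span ℝ ((N.image Y : Finset _) : Set _)
  have hdim : Module.finrank ℝ U ≤ N.card :=
    (finrank_span_finset_le_card (R := ℝ) (N.image Y)).trans card_image_le
  let B := stdOrthonormalBasis ℝ U
  have hmem : ∀ p ∈ N, Y p ∈ U := fun p hp =>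
    Submodule.subset_span (by exact_mod_cast mem_image_of_mem Y hp)
  have key : ∀ e ∈ s, (∑ i, u e i * (X (a e) i - X (b e) i)) ^ 2 ≤
      T * ∑ j, (∑ i, u e i * ((B j : U) : EuclideanSpace ℝ I) i) ^ 2 := by
    intro e he
    let z : U := ⟨Y (a e) - Y (b e), U.sub_mem (hmem _ (ha e he)) (hmem _ (hb e he))⟩
    have hzi : ∀ i, X (a e) i - X (b e) i = (z : EuclideanSpace ℝ I) i := fun i => by
      simp [z, Y]
    have hrepr : ∀ i, (z : EuclideanSpace ℝ I) i =
        ∑ j, inner ℝ (B j) z * ((B j : U) : EuclideanSpace ℝ I) i := by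
      intro i
      conv_lhs => rw [← B.sum_repr' z]
      simp
    have hnorm : ∑ j, inner ℝ (B j) z ^ 2 ≤ T := by
      rw [B.sum_sq_inner_right z]
      have : ‖z‖ ^ 2 = ∑ i, (X (a e) i - X (b e) i) ^ 2 := by
        rw [Submodule.coe_norm, EuclideanSpace.real_norm_sq_eq]
        exact sum_congr rfl fun i _ => by rw [hzi]
      rw [this]
      exact hz e he
    have h1 : ∑ i, u e i * (X (a e) i - X (b e) i) =
        ∑ j, inner ℝ (B j) z * ∑ i, u e i * ((B j : U) : EuclideanSpace ℝ I) i := by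
      simp_rw [hzi, hrepr, mul_sum]
      rw [sum_comm]
      exact sum_congr rfl fun j _ => sum_congr rfl fun i _ => by ring
    rw [h1]
    refine (Finset.sum_mul_sq_le_sq_mul_sq univ _ _).trans ?_
    exact mul_le_mul_of_nonneg_right hnorm (sum_nonneg fun j _ => sq_nonneg _)
  refine (sum_le_sum key).trans ?_
  rw [← mul_sum, sum_comm]
  refine mul_le_mul_of_nonneg_left ?_ hT
  have h2 : ∀ j, ∑ e ∈ s, (∑ i, u e i * ((B j : U) : EuclideanSpace ℝ I) i) ^ 2 ≤ 1 := by
    intro j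
    refine (bessel_disj u hu hd s _).trans (le_of_eq ?_)
    rw [← EuclideanSpace.real_norm_sq_eq, ← Submodule.coe_norm, B.orthonormal.1 j, one_pow]
  refine (sum_le_sum fun j _ => h2 j).trans ?_
  simp only [sum_const, card_univ, Fintype.card_fin, nsmul_eq_mul, mul_one]
  exact_mod_cast hdim

/-- a maximal separated subset -/
theorem exists_net [DecidableEq V] (d : V → V → ℝ) (hs : ∀ u v, d u v = d v u)
    (h0 : ∀ u, d u u = 0) {r : ℝ} (hr : 0 ≤ r) (S : Finset V) :
    ∃ N ⊆ S, (∀ x ∈ N, ∀ y ∈ N, x ≠ y → r ≤ d x y) ∧ ∀ x ∈ S, ∃ y ∈ N, d x y ≤ r := by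
  induction S using Finset.induction_on with
  | empty => exact ⟨∅, Subset.refl _, by simp, by simp⟩
  | insert x S _ ih =>
    obtain ⟨N, h1, h2, h3⟩ := ih
    by_cases h : ∃ y ∈ N, d x y ≤ r
    · refine ⟨N, h1.trans (subset_insert _ _), h2, fun z hz => ?_⟩
      rcases mem_insert.1 hz with rfl | hz
      · exact h
      · exact h3 z hz
    · push Not at h
      refine ⟨insert x N, insert_subset_insert _ h1, fun y hy z hz hne => ?_, fun z hz => ?_⟩
      · rcases mem_insert.1 hy with hy' | hy' <;> rcases mem_insert.1 hz with hz' | hz'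
        · exact absurd (hy'.trans hz'.symm) hne
        · rw [hy']; exact (h z hz').le
        · rw [hz', hs]; exact (h y hy').le
        · exact h2 y hy' z hz' hne
      · rcases mem_insert.1 hz with rfl | hz
        · exact ⟨z, mem_insert_self _ _, by rw [h0]; exact hr⟩
        · obtain ⟨y, hy, hy'⟩ := h3 z hz
          exact ⟨y, mem_insert_of_mem hy, hy'⟩

/-- one scale: move both ends of every edge to the net -/
theorem one_scale (u : E → I → ℝ) (hu : ∀ e, ∑ i, u e i ^ 2 ≤ 1)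
    (hd : ∀ e f, e ≠ f → ∀ i, u e i * u f i = 0) (d : V → V → ℝ)
    (hs : ∀ u v, d u v = d v u) (htri : ∀ u v w, d u w ≤ d u v + d v w)
    (X : V → I → ℝ) (hX : ∀ a b, ∑ i, (X a i - X b i) ^ 2 ≤ d a b)
    (src tgt : E → V) (N : Finset V) (s : Finset E) {t r : ℝ} (ht : 0 ≤ t) (hr : r ≤ t)
    (hl : ∀ e ∈ s, d (src e) (tgt e) ≤ t)
    (ha : ∀ e ∈ s, ∃ y ∈ N, d (src e) y ≤ r) (hb : ∀ e ∈ s, ∃ y ∈ N, d (tgt e) y ≤ r) :
    ∑ e ∈ s, (∑ i, u e i * (X (src e) i - X (tgt e) i)) ^ 2 ≤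
      6 * t * N.card + 8 * r * s.card := by
  classical
  have ha' : ∀ e, ∃ y, e ∈ s → y ∈ N ∧ d (src e) y ≤ r := fun e => by
    by_cases he : e ∈ s
    · obtain ⟨y, hy⟩ := ha e he
      exact ⟨y, fun _ => hy⟩
    · exact ⟨src e, fun h => absurd h he⟩
  have hb' : ∀ e, ∃ y, e ∈ s → y ∈ N ∧ d (tgt e) y ≤ r := fun e => by
    by_cases he : e ∈ s
    · obtain ⟨y, hy⟩ := hb e he
      exact ⟨y, fun _ => hy⟩
    · exact ⟨src e, fun h => absurd h he⟩
  choose a ha0 using ha'
  choose b hb0 using hb'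
  have ha1 := fun e he => (ha0 e he).1
  have ha2 := fun e he => (ha0 e he).2
  have hb1 := fun e he => (hb0 e he).1
  have hb2 := fun e he => (hb0 e he).2
  have h1 := bessel_rank u hu hd X N s a b ha1 hb1 (T := 3 * t) (by linarith) (fun e he => by
    have e1 := htri (a e) (src e) (b e)
    have e2 := htri (src e) (tgt e) (b e)
    have e3 := hs (a e) (src e)
    have := hX (a e) (b e)
    have := ha2 e he
    have := hb2 e he
    have := hl e he
    linarith)
  have h2 : ∀ e ∈ s, (∑ i, u e i * (X (src e) i - X (tgt e) i)) ^ 2 ≤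
      2 * (∑ i, u e i * (X (a e) i - X (b e) i)) ^ 2 + 8 * r := by
    intro e he
    have e1 := (sq_pair_le (u e) (fun i => X (src e) i - X (a e) i) (hu e)).trans
      ((hX _ _).trans (ha2 e he))
    have e2 := (sq_pair_le (u e) (fun i => X (tgt e) i - X (b e) i) (hu e)).trans
      ((hX _ _).trans (hb2 e he))
    have e3 : ∑ i, u e i * (X (src e) i - X (tgt e) i) =
        ∑ i, u e i * (X (a e) i - X (b e) i) + ∑ i, u e i * (X (src e) i - X (a e) i)
          - ∑ i, u e i * (X (tgt e) i - X (b e) i) := by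
      rw [← sum_add_distrib, ← sum_sub_distrib]
      exact sum_congr rfl fun i _ => by ring
    rw [e3]
    set A := ∑ i, u e i * (X (a e) i - X (b e) i)
    set B := ∑ i, u e i * (X (src e) i - X (a e) i)
    set C := ∑ i, u e i * (X (tgt e) i - X (b e) i)
    nlinarith [sq_nonneg (A - B + C), sq_nonneg (B + C)]
  refine (sum_le_sum h2).trans ?_
  rw [sum_add_distrib, ← mul_sum, sum_const, nsmul_eq_mul]
  linarith

end Crest.Agent.X37.LB
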