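import Crest.Agent.X37.LB.Defs
import Crest.Agent.X37.LB.Bessel

/-!
Row 37, Lemma B for an abstract chain of label maps: the geometric claim, the Bessel step and the
summation over residue classes of dyadic scales.
-/

set_option autoImplicit false

namespace Crest.Agent.X37.LB

open Finset

theorem ncl_nonneg {V : Type} [Fintype V] [DecidableEq V] [Nonempty V] (c : V → V) :
    0 ≤ ncl c := by
  have h : 1 ≤ (Finset.univ.image c).card := card_pos.2 (univ_nonempty.image c)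
  have h' : (1 : ℝ) ≤ (Finset.univ.image c).card := by exact_mod_cast h
  unfold ncl
  linarith

theorem sum_dyadic_le {s x : ℝ} (hs : 0 < s) (hx : 0 ≤ x) (M : ℕ) :
    ∑ i ∈ range M, (if s * 2 ^ i < x then s * 2 ^ i else 0) ≤ 2 * x := by
  have key : ∑ i ∈ range M, (if s * 2 ^ i < x then s * 2 ^ i else 0) ≤ s * 2 ^ M ∧
      ∑ i ∈ range M, (if s * 2 ^ i < x then s * 2 ^ i else 0) ≤ 2 * x := by
    induction M with
    | zero => simp only [range_zero, sum_empty]; constructor <;> positivity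
    | succ M ih =>
      rw [sum_range_succ, pow_succ]
      have : 0 < s * 2 ^ M := by positivity
      split_ifs with h
      · constructor <;> nlinarith [ih.1]
      · constructor <;> nlinarith [ih.1, ih.2]
  exact key.2

theorem sum_range_mul_eq (f : ℕ → ℝ) (J p : ℕ) :
    ∑ i ∈ range (J * p), f i = ∑ r ∈ range p, ∑ j ∈ range J, f (r + j * p) := by
  induction J with
  | zero => simp
  | succ J ih =>
    rw [Nat.succ_mul, sum_range_add, ih, ← sum_add_distrib]
    refine sum_congr rfl fun r _ => ?_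
    rw [sum_range_succ, add_comm (J * p) r]

theorem sum_shift_le (a : ℕ → ℝ) (ha : ∀ i, 0 ≤ a i) {A : ℝ}
    (hA : ∀ M, ∑ i ∈ range M, a i ≤ A) (r M : ℕ) : ∑ i ∈ range M, a (r + i) ≤ A := by
  have h := hA (r + M)
  rw [sum_range_add] at h
  have : 0 ≤ ∑ i ∈ range r, a i := sum_nonneg fun i _ => ha i
  linarith

variable {V E I : Type} [Fintype V] [DecidableEq V] [Nonempty V] [Fintype E] [Fintype I]

/-- the total weight of the numbers of classes over all dyadic scales -/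
theorem sum_ncl_le (l : E → ℝ) (hl : ∀ e, 0 ≤ l e) (c : ℕ → V → V) {s0 gap : ℝ} (hs0 : 0 < s0)
    (hgap : 0 < gap)
    (h4 : ∀ i, gap * ncl (c i) ≤ ((univ.filter fun e => s0 * 2 ^ i < l e).card : ℝ)) (M : ℕ) :
    ∑ i ∈ range M, s0 * 2 ^ i * ncl (c i) ≤ 2 * (∑ e, l e) / gap := by
  rw [le_div_iff₀ hgap, sum_mul]
  calc ∑ i ∈ range M, s0 * 2 ^ i * ncl (c i) * gap
      ≤ ∑ i ∈ range M, ∑ e, (if s0 * 2 ^ i < l e then s0 * 2 ^ i else 0) := by
        refine sum_le_sum fun i _ => ?_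
        rw [← sum_filter, sum_const, nsmul_eq_mul]
        have : 0 < s0 * 2 ^ i := by positivity
        nlinarith [h4 i]
    _ ≤ ∑ e, 2 * l e := by
        rw [sum_comm]
        exact sum_le_sum fun e _ => sum_dyadic_le hs0 (hl e) M
    _ = 2 * ∑ e, l e := by rw [mul_sum]

/-- the nets of all scales together -/
theorem sum_nets_le {C : ℝ} (hC : 0 ≤ C) (hcl : Claim C) (d : V → V → ℝ) (c : ℕ → V → V)
    {s0 del A : ℝ} (p q J : ℕ) (Z : ℕ → Finset V)
    (hd0 : ∀ u, d u u = 0) (hds : ∀ u v, d u v = d v u) (hdt : ∀ u v w, d u w ≤ d u v + d v w)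
    (hs0 : 0 < s0) (hdel : 0 < del) (hdel1 : del ≤ 1) (hCp : C ≤ del * 2 ^ p) (hqp : q + 1 ≤ p)
    (h0 : ∀ i < p, ∀ u v, c i u = c i v → u = v)
    (h1 : ∀ i u v, c i u = c i v → c (i + 1) u = c (i + 1) v)
    (h2 : ∀ i u v, c i u = c i v →
      Relation.ReflTransGen (fun a b => c i a = c i b ∧ d a b ≤ s0 * 2 ^ i) u v)
    (hsep : ∀ i, ∀ x ∈ Z i, ∀ y ∈ Z i, x ≠ y → del * (s0 * 2 ^ (i + q)) ≤ d x y)
    (hpar : ∀ i, ∀ x ∈ Z i, ∃ y, d x y ≤ s0 * 2 ^ (i + q) ∧ c i x ≠ c i y ∧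
      c (i + p) x = c (i + p) y)
    (hA : ∀ M, ∑ i ∈ range M, s0 * 2 ^ i * ncl (c i) ≤ A) :
    ∑ i ∈ range (J * p), s0 * 2 ^ (i + q) * ((Z i).card : ℝ) ≤ C / del * ((p + 2 ^ q) * A) := by
  have ha : ∀ i, 0 ≤ s0 * 2 ^ i * ncl (c i) := fun i =>
    mul_nonneg (by positivity) (ncl_nonneg _)
  have hpow : ∀ r i : ℕ, s0 * 2 ^ r * 2 ^ i = s0 * 2 ^ (r + i) := fun r i => by
    rw [pow_add]; ring
  have hr : ∀ r ∈ range p, ∑ j ∈ range J, s0 * 2 ^ (r + j * p + q) * ((Z (r + j * p)).card : ℝ) ≤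
      C / del * (A + 2 ^ q * ∑ j ∈ range J, s0 * 2 ^ (r + j * p) * ncl (c (r + j * p))) := by
    intro r hr
    have h := hcl V d (fun i => c (r + i)) (s0 * 2 ^ r) del p q J (fun j => Z (r + j * p))
      hd0 hds hdt (by positivity) hdel hdel1 hCp hqp (h0 r (mem_range.1 hr))
      (fun i => h1 (r + i)) (fun i u v huv => by rw [hpow]; exact h2 (r + i) u v huv)
      (fun j x hx y hy hne => by rw [hpow, ← add_assoc]; exact hsep _ x hx y hy hne)
      (fun j x hx => by
        obtain ⟨y, hy1, hy2, hy3⟩ := hpar _ x hx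
        refine ⟨y, by rw [hpow, ← add_assoc]; exact hy1, hy2, ?_⟩
        rw [Nat.succ_mul, ← add_assoc]
        exact hy3)
    simp only [hpow, ← add_assoc] at h
    refine h.trans (mul_le_mul_of_nonneg_left ?_ (div_nonneg hC hdel.le))
    refine add_le_add (sum_shift_le (fun i => s0 * 2 ^ i * ncl (c i)) ha hA r _) (le_of_eq ?_)
    rw [mul_sum]
    exact sum_congr rfl fun j _ => by rw [pow_add]; ring
  rw [sum_range_mul_eq (fun i => s0 * 2 ^ (i + q) * ((Z i).card : ℝ))]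
  refine (sum_le_sum hr).trans ?_
  rw [← mul_sum, sum_add_distrib, ← mul_sum,
    ← sum_range_mul_eq (fun i => s0 * 2 ^ i * ncl (c i)), sum_const, card_range, nsmul_eq_mul]
  refine mul_le_mul_of_nonneg_left ?_ (div_nonneg hC hdel.le)
  have := mul_le_mul_of_nonneg_left (hA (J * p)) (show (0 : ℝ) ≤ 2 ^ q by positivity)
  linarith

/-- **Lemma B** for an abstract chain of label maps -/
theorem lemmaB_core {C : ℝ} (hC : 0 ≤ C) (hcl : Claim C) (src tgt : E → V) (l : E → ℝ)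
    (d : V → V → ℝ) (X : V → I → ℝ) (u : E → I → ℝ) (good : Finset E) (c : ℕ → V → V)
    {s0 del gap k : ℝ} (p q : ℕ)
    (hd0 : ∀ u, d u u = 0) (hds : ∀ u v, d u v = d v u) (hdt : ∀ u v w, d u w ≤ d u v + d v w)
    (hdl : ∀ e, d (src e) (tgt e) ≤ l e) (hX : ∀ a b, ∑ i, (X a i - X b i) ^ 2 ≤ d a b)
    (hu : ∀ e, ∑ i, u e i ^ 2 ≤ 1) (hud : ∀ e f, e ≠ f → ∀ i, u e i * u f i = 0)
    (hs0 : 0 < s0) (hl : ∀ e, s0 * 2 ^ q < l e) (hdel : 0 < del) (hdel1 : del ≤ 1)
    (hgap : 0 < gap) (hCp : C ≤ del * 2 ^ p) (hqp : q + 1 ≤ p) (hk : k * 2 ^ q ≤ 2 ^ p)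
    (h0 : ∀ i < p, ∀ u v, c i u = c i v → u = v)
    (h1 : ∀ i u v, c i u = c i v → c (i + 1) u = c (i + 1) v)
    (h2 : ∀ i u v, c i u = c i v →
      Relation.ReflTransGen (fun a b => c i a = c i b ∧ d a b ≤ s0 * 2 ^ i) u v)
    (h3 : ∀ i, ((univ.filter fun e => l e ≤ s0 * 2 ^ i ∧ c i (src e) ≠ c i (tgt e)).card : ℝ) ≤
      k * ncl (c i))
    (h4 : ∀ i, gap * ncl (c i) ≤ ((univ.filter fun e => s0 * 2 ^ i < l e).card : ℝ))
    (hg : ∀ e ∈ good, ∀ i, s0 * 2 ^ (i + q) < 2 * l e → c i (src e) ≠ c i (tgt e)) :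
    ∑ e ∈ good, (∑ i, u e i * (X (src e) i - X (tgt e) i)) ^ 2 ≤
      (16 * del + (2 + 12 * C * (p + 2 ^ q) / del) / gap) * ∑ e, l e := by
  classical
  have hl0 : ∀ e, 0 ≤ l e := fun e => le_trans (by positivity) (hl e).le
  set W := ∑ e, l e with hW
  set A := 2 * W / gap with hAdef
  have hA : ∀ M, ∑ i ∈ range M, s0 * 2 ^ i * ncl (c i) ≤ A := sum_ncl_le l hl0 c hs0 hgap h4
  have ha : ∀ i, 0 ≤ s0 * 2 ^ i * ncl (c i) := fun i =>
    mul_nonneg (by positivity) (ncl_nonneg _)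
  -- the dyadic index of an edge
  have hex : ∀ e, ∃ i : ℕ, l e ≤ s0 * 2 ^ (i + q) := fun e => by
    obtain ⟨n, hn⟩ := pow_unbounded_of_one_lt (l e / s0) (show (1 : ℝ) < 2 by norm_num)
    refine ⟨n, ?_⟩
    rw [div_lt_iff₀ hs0] at hn
    have : (2 : ℝ) ^ n ≤ 2 ^ (n + q) := pow_le_pow_right₀ (by norm_num) (Nat.le_add_right _ _)
    nlinarith
  let idx : E → ℕ := fun e => Nat.find (hex e)
  have hi1 : ∀ e, l e ≤ s0 * 2 ^ (idx e + q) := fun e => Nat.find_spec (hex e)
  have hi2 : ∀ e, s0 * 2 ^ (idx e + q) < 2 * l e := fun e => by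
    rcases hidx : idx e with _ | m
    · have := hl e
      have := hl0 e
      rw [zero_add]
      linarith
    · have h := Nat.find_min (hex e) (m := m) (by change m < idx e; omega)
      push Not at h
      rw [show m + 1 + q = m + q + 1 by omega, pow_succ]
      linarith
  let J : ℕ := univ.sup idx + 1
  have hp : 1 ≤ p := by omega
  have hJ : ∀ e ∈ good, idx e ∈ range (J * p) := fun e _ => by
    have h1 : idx e ≤ univ.sup idx := le_sup (mem_univ e)
    have h2 : J ≤ J * p := Nat.le_mul_of_pos_right _ hp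
    exact mem_range.2 (by omega)
  -- the edges inside the next partition of the residue class, and the nets of their ends
  let F : ℕ → Finset E := fun i =>
    (good.filter fun e => idx e = i).filter fun e => c (i + p) (src e) = c (i + p) (tgt e)
  have hnet : ∀ i, ∃ N ⊆ (F i).image src ∪ (F i).image tgt,
      (∀ x ∈ N, ∀ y ∈ N, x ≠ y → del * (s0 * 2 ^ (i + q)) ≤ d x y) ∧
      ∀ x ∈ (F i).image src ∪ (F i).image tgt, ∃ y ∈ N, d x y ≤ del * (s0 * 2 ^ (i + q)) :=
    fun i => exists_net d hds hd0 (by positivity) _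
  choose Z hZ1 hZ2 hZ3 using hnet
  have hF : ∀ i, ∀ e ∈ F i, l e ≤ s0 * 2 ^ (i + q) ∧ s0 * 2 ^ (i + q) < 2 * l e ∧
      c i (src e) ≠ c i (tgt e) ∧ c (i + p) (src e) = c (i + p) (tgt e) := fun i e he => by
    obtain ⟨he1, he2⟩ := mem_filter.1 he
    obtain ⟨he0, rfl⟩ := mem_filter.1 he1
    exact ⟨hi1 e, hi2 e, hg e he0 _ (hi2 e), he2⟩
  have hpar : ∀ i, ∀ x ∈ Z i, ∃ y, d x y ≤ s0 * 2 ^ (i + q) ∧ c i x ≠ c i y ∧
      c (i + p) x = c (i + p) y := fun i x hx => by
    rcases mem_union.1 (hZ1 i hx) with h | h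
    · obtain ⟨e, he, rfl⟩ := mem_image.1 h
      obtain ⟨e1, -, e3, e4⟩ := hF i e he
      exact ⟨tgt e, (hdl e).trans e1, e3, e4⟩
    · obtain ⟨e, he, rfl⟩ := mem_image.1 h
      obtain ⟨e1, -, e3, e4⟩ := hF i e he
      exact ⟨src e, by rw [hds]; exact (hdl e).trans e1, e3.symm, e4.symm⟩
  have hnets := sum_nets_le hC hcl d c p q J Z hd0 hds hdt hs0 hdel hdel1 hCp hqp h0 h1 h2
    hZ2 hpar hA
  -- one scale
  have hscale : ∀ i, ∑ e ∈ good.filter (fun e => idx e = i),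
      (∑ j, u e j * (X (src e) j - X (tgt e) j)) ^ 2 ≤
      s0 * 2 ^ (p + i) * ncl (c (p + i)) + 6 * (s0 * 2 ^ (i + q) * ((Z i).card : ℝ)) +
        16 * del * ∑ e ∈ good.filter (fun e => idx e = i), l e := by
    intro i
    have ht : 0 < s0 * 2 ^ (i + q) := by positivity
    rw [← sum_filter_add_sum_filter_not (good.filter fun e => idx e = i)
      (fun e => c (i + p) (src e) = c (i + p) (tgt e))]
    have e1 := one_scale u hu hud d hds hdt X hX src tgt (Z i) (F i) (t := s0 * 2 ^ (i + q))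
      (r := del * (s0 * 2 ^ (i + q))) ht.le (by nlinarith)
      (fun e he => (hdl e).trans (hF i e he).1)
      (fun e he => hZ3 i _ (mem_union_left _ (mem_image_of_mem src he)))
      (fun e he => hZ3 i _ (mem_union_right _ (mem_image_of_mem tgt he)))
    have e2 : s0 * 2 ^ (i + q) * ((F i).card : ℝ) ≤
        2 * ∑ e ∈ good.filter (fun e => idx e = i), l e := by
      calc s0 * 2 ^ (i + q) * ((F i).card : ℝ) = ∑ _e ∈ F i, s0 * 2 ^ (i + q) := by
            rw [sum_const, nsmul_eq_mul, mul_comm]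
        _ ≤ ∑ e ∈ F i, 2 * l e := sum_le_sum fun e he => (hF i e he).2.1.le
        _ ≤ ∑ e ∈ good.filter (fun e => idx e = i), 2 * l e :=
            sum_le_sum_of_subset_of_nonneg (filter_subset _ _) fun e _ _ => by
              have := hl0 e; positivity
        _ = _ := by rw [mul_sum]
    have e3 : ∑ e ∈ (good.filter fun e => idx e = i).filter
        (fun e => ¬ c (i + p) (src e) = c (i + p) (tgt e)),
        (∑ j, u e j * (X (src e) j - X (tgt e) j)) ^ 2 ≤ s0 * 2 ^ (p + i) * ncl (c (p + i)) := by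
      have hle : s0 * 2 ^ (i + q) ≤ s0 * 2 ^ (i + p) :=
        mul_le_mul_of_nonneg_left (pow_le_pow_right₀ (by norm_num) (by omega)) hs0.le
      calc _ ≤ ∑ _e ∈ (good.filter fun e => idx e = i).filter
              (fun e => ¬ c (i + p) (src e) = c (i + p) (tgt e)), s0 * 2 ^ (i + q) := by
            refine sum_le_sum fun e he => ?_
            obtain ⟨he1, -⟩ := mem_filter.1 he
            obtain ⟨-, rfl⟩ := mem_filter.1 he1
            exact (sq_pair_le (u e) _ (hu e)).trans ((hX _ _).trans ((hdl e).trans (hi1 e)))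
        _ ≤ s0 * 2 ^ (i + q) * (k * ncl (c (i + p))) := by
            rw [sum_const, nsmul_eq_mul, mul_comm]
            refine mul_le_mul_of_nonneg_left (le_trans ?_ (h3 (i + p))) ht.le
            refine Nat.cast_le.2 (card_le_card fun e he => ?_)
            obtain ⟨he1, he2⟩ := mem_filter.1 he
            obtain ⟨-, rfl⟩ := mem_filter.1 he1
            exact mem_filter.2 ⟨mem_univ _, (hi1 e).trans hle, he2⟩
        _ = s0 * 2 ^ i * ncl (c (i + p)) * (k * 2 ^ q) := by rw [pow_add]; ring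
        _ ≤ s0 * 2 ^ i * ncl (c (i + p)) * 2 ^ p :=
            mul_le_mul_of_nonneg_left hk (mul_nonneg (by positivity) (ncl_nonneg _))
        _ = _ := by rw [add_comm p i, pow_add]; ring
    have e4 := mul_le_mul_of_nonneg_left e2 (show 0 ≤ 8 * del by positivity)
    change ∑ e ∈ F i, _ + _ ≤ _
    linarith
  rw [← sum_fiberwise_of_maps_to hJ]
  refine (sum_le_sum fun i _ => hscale i).trans ?_
  rw [sum_add_distrib, sum_add_distrib, ← mul_sum, ← mul_sum, sum_fiberwise_of_maps_to hJ]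
  have f1 := sum_shift_le (fun i => s0 * 2 ^ i * ncl (c i)) ha hA p (J * p)
  have f2 : ∑ e ∈ good, l e ≤ W := sum_le_sum_of_subset_of_nonneg (subset_univ _) fun e _ _ => hl0 e
  have f3 := mul_le_mul_of_nonneg_left f2 (show 0 ≤ 16 * del by positivity)
  have f4 : (16 * del + (2 + 12 * C * (p + 2 ^ q) / del) / gap) * W =
      A + 6 * (C / del * ((p + 2 ^ q) * A)) + 16 * del * W := by
    rw [hAdef]; field_simp; ring
  rw [f4]
  linarith

end Crest.Agent.X37.LB
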